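import Vale.Agent.P011.D4X.H370.TripConj
import Vale.Agent.P011.D4Y.H68.AutI

/-!
Block D4Y, row E: the automorphisms of the octonion algebra over the ground field which fix `i`,
in the case of a noncyclic cubic extension.
-/

open NumberField Topology

namespace Vale.Agent.P011.D4Y.H370

open Vale.Agent.P011.MPQ Vale.Agent.P011.D4 Vale.Agent.P011.D4.Oct Vale.Agent.P011.D4.Em
open Vale.Agent.P011.D4.B.FI (fixI mem_fixI)
open Vale.Agent.P011.D4X

theorem extE_mem_GTI {k L E : Type} [Field k] [Field L] [Field E] [Algebra k L] [Algebra k E]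
    [Algebra L E] [IsScalarTower k L E] [NeZero (2 : E)] {ρ σ ι : E ≃ₐ[k] E} {α : E}
    {a b c : kˣ} {q : Lˣ} {f : AutC a b c} (hf : f.1 gi = gi) :
    extE E f.1 ∈ GTI ρ σ ι α a b c q :=
  H68.extE_memI (⟨f, mem_fixI.2 hf⟩ : fixI a b c)

/-- The automorphisms of the octonion algebra over the ground field which fix `i` lie in the
finite residual. -/
theorem extE_mem_RsI {k L E : Type} [Field k] [NumberField k] [Field L] [Field E] [Algebra k L]
    [Algebra k E] [Algebra L E] [IsScalarTower k L E] [NeZero (2 : E)] {ρ σ ι : E ≃ₐ[k] E}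
    {α : E} {a b c : kˣ} {q : Lˣ} (H : HyI ρ σ ι α a b c q)
    {f : AutC a b c} (hf : f.1 gi = gi) : extE E f.1 ∈ RsI ρ σ ι α a b c q :=
  autI_mem H (extE_mem_GTI hf) (D4X.H369.extE_ep (⟨f, mem_fixI.2 hf⟩ : fixI a b c))

end Vale.Agent.P011.D4Y.H370
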